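import Mathlib

/-!
The Banach-Mazur criterion: a set which the second player can avoid by a strategy with memory is
meagre.
-/

open Set Filter Topology

namespace Vale.Agent.P354BM

variable {X S : Type*} [TopologicalSpace X]

/-- A maximal family of answers with disjoint open sets. -/
lemma maximal (U : S → Set X) (A : Set S) (V : Set X)
    (h : ∀ O, IsOpen O → O.Nonempty → O ⊆ V → ∃ t ∈ A, U t ⊆ O ∧ (U t).Nonempty)
    (hV : IsOpen V) :
    ∃ F : Set S, F ⊆ A ∧ (∀ t ∈ F, U t ⊆ V) ∧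
      (∀ t ∈ F, ∀ t' ∈ F, ∀ x, x ∈ U t → x ∈ U t' → t = t') ∧ V ⊆ closure (⋃ t ∈ F, U t) := by
  let P : Set (Set S) := {F | F ⊆ A ∧ (∀ t ∈ F, U t ⊆ V) ∧
    ∀ t ∈ F, ∀ t' ∈ F, ∀ x, x ∈ U t → x ∈ U t' → t = t'}
  obtain ⟨F, hF⟩ : ∃ F, Maximal (· ∈ P) F := by
    refine zorn_subset P fun c hc hch => ⟨⋃₀ c, ⟨?_, ?_, ?_⟩, fun s hs => subset_sUnion_of_mem hs⟩
    · exact sUnion_subset fun F hF => (hc hF).1
    · rintro t ⟨F, hF, ht⟩
      exact (hc hF).2.1 t ht
    · rintro t ⟨F, hF, ht⟩ t' ⟨F', hF', ht'⟩ x hx hx'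
      rcases hch.total hF hF' with k | k
      · exact (hc hF').2.2 t (k ht) t' ht' x hx hx'
      · exact (hc hF).2.2 t ht t' (k ht') x hx hx'
  refine ⟨F, hF.1.1, hF.1.2.1, hF.1.2.2, fun x hx => ?_⟩
  by_contra hn
  obtain ⟨t, tA, tO, y, hy⟩ := h (V \ closure (⋃ t ∈ F, U t)) (hV.sdiff isClosed_closure)
    ⟨x, hx, hn⟩ sdiff_subset
  have key : ∀ t' ∈ F, ∀ z, z ∈ U t → z ∈ U t' → False := fun t' ht' z hz hz' =>
    (tO hz).2 (subset_closure (mem_iUnion₂.2 ⟨t', ht', hz'⟩))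
  have hP : insert t F ∈ P := by
    refine ⟨insert_subset tA hF.1.1, ?_, ?_⟩
    · rintro t' (rfl | ht')
      · exact tO.trans sdiff_subset
      · exact hF.1.2.1 t' ht'
    · rintro a (rfl | ha) b (rfl | hb) z hz hz'
      · rfl
      · exact (key b hb z hz hz').elim
      · exact (key a ha z hz' hz).elim
      · exact hF.1.2.2 a ha b hb z hz hz'
  exact key t (hF.2 hP (subset_insert _ _) (mem_insert _ _)) y hy hy

/-- States s carry open sets U s. From every state s of level n and every nonempty open subset O of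
U s the second player can move to a state t with U t inside O. If every point which lies in all
the sets of a play is outside of B, then B is meagre in the set of the initial state. -/
theorem meagre_of_strategy (B : Set X) (U : S → Set X) (hU : ∀ s, IsOpen (U s))
    (nxt : ℕ → S → S → Prop) (ok : ℕ → S → Prop) (s0 : S) (h0 : ok 0 s0)
    (hstep : ∀ n s, ok n s → ∀ O, IsOpen O → O.Nonempty → O ⊆ U s →
      ∃ t, nxt n s t ∧ ok (n + 1) t ∧ U t ⊆ O ∧ (U t).Nonempty)
    (hwin : ∀ s : ℕ → S, s 0 = s0 → (∀ n, ok n (s n) ∧ nxt n (s n) (s (n + 1))) →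
      ∀ x, (∀ n, x ∈ U (s n)) → x ∉ B) :
    IsMeagre (B ∩ U s0) := by
  have hF : ∀ n s, ∃ F : Set S, ok n s → F ⊆ {t | nxt n s t ∧ ok (n + 1) t} ∧
      (∀ t ∈ F, U t ⊆ U s) ∧ (∀ t ∈ F, ∀ t' ∈ F, ∀ x, x ∈ U t → x ∈ U t' → t = t') ∧
      U s ⊆ closure (⋃ t ∈ F, U t) := by
    intro n s
    by_cases k : ok n s
    · obtain ⟨F, hF⟩ := maximal U {t | nxt n s t ∧ ok (n + 1) t} (U s)
        (fun O a b c => by
          obtain ⟨t, h1, h2, h3, h4⟩ := hstep n s k O a b c
          exact ⟨t, ⟨h1, h2⟩, h3, h4⟩) (hU s)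
      exact ⟨F, fun _ => hF⟩
    · exact ⟨∅, fun h => (k h).elim⟩
  choose F hF using hF
  let L : ℕ → Set S := fun n => Nat.rec {s0} (fun n Ln => ⋃ s ∈ Ln, F n s) n
  have L0 : L 0 = {s0} := rfl
  have L1 : ∀ n, L (n + 1) = ⋃ s ∈ L n, F n s := fun n => rfl
  have Lok : ∀ n, ∀ s ∈ L n, ok n s := by
    intro n
    induction n with
    | zero => intro s hs; rw [L0, mem_singleton_iff] at hs; exact hs ▸ h0
    | succ n ih =>
      intro s hs
      rw [L1] at hs
      obtain ⟨r, hr, hs⟩ := mem_iUnion₂.1 hs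
      exact ((hF n r (ih r hr)).1 hs).2
  have Lu : ∀ n, ∀ s ∈ L n, ∀ s' ∈ L n, ∀ x, x ∈ U s → x ∈ U s' → s = s' := by
    intro n
    induction n with
    | zero =>
      intro s hs s' hs' _ _ _
      rw [L0, mem_singleton_iff] at hs hs'
      rw [hs, hs']
    | succ n ih =>
      intro s hs s' hs' x hx hx'
      rw [L1] at hs hs'
      obtain ⟨r, hr, hs⟩ := mem_iUnion₂.1 hs
      obtain ⟨r', hr', hs'⟩ := mem_iUnion₂.1 hs'
      have e : r = r' := ih r hr r' hr' x ((hF n r (Lok n r hr)).2.1 s hs hx)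
        ((hF n r' (Lok n r' hr')).2.1 s' hs' hx')
      subst e
      exact (hF n r (Lok n r hr)).2.2.1 s hs s' hs' x hx hx'
  let D : ℕ → Set X := fun n => ⋃ s ∈ L n, U s
  have Do : ∀ n, IsOpen (D n) := fun n => isOpen_biUnion fun s _ => hU s
  have Dd : ∀ n, U s0 ⊆ closure (D n) := by
    intro n
    induction n with
    | zero => exact fun x hx => subset_closure (mem_iUnion₂.2 ⟨s0, by simp [L0], hx⟩)
    | succ n ih =>
      refine ih.trans (closure_minimal ?_ isClosed_closure)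
      refine iUnion₂_subset fun s hs => ((hF n s (Lok n s hs)).2.2.2).trans (closure_mono ?_)
      refine iUnion₂_subset fun t ht => ?_
      exact subset_biUnion_of_mem (u := U) (L1 n ▸ mem_iUnion₂.2 ⟨s, hs, ht⟩)
  have sub : B ∩ U s0 ⊆ ⋃ n, frontier (D n) := by
    rintro x ⟨hB, hx⟩
    by_contra hn
    have hD : ∀ n, x ∈ D n := fun n => by
      by_contra k
      exact hn (mem_iUnion.2 ⟨n, by rw [(Do n).frontier_eq]; exact ⟨Dd n hx, k⟩⟩)
    have : ∀ n, ∃ s, s ∈ L n ∧ x ∈ U s := fun n => by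
      obtain ⟨s, a, b⟩ := mem_iUnion₂.1 (hD n)
      exact ⟨s, a, b⟩
    choose s hs using this
    refine hwin s (by simpa [L0] using (hs 0).1) (fun n => ⟨Lok n _ (hs n).1, ?_⟩) x
      (fun n => (hs n).2) hB
    have k := (hs (n + 1)).1
    rw [L1] at k
    obtain ⟨r, hr, k⟩ := mem_iUnion₂.1 k
    have e : r = s n := Lu n r hr _ (hs n).1 x ((hF n r (Lok n r hr)).2.1 _ k (hs (n + 1)).2)
      (hs n).2
    subst e
    exact ((hF n _ (Lok n _ hr)).1 k).1
  refine IsMeagre.mono sub (isMeagre_iUnion fun n => ?_)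
  refine IsNowhereDense.isMeagre ?_
  rw [isClosed_frontier.isNowhereDense_iff, ← frontier_compl]
  exact interior_frontier (Do n).isClosed_compl

end Vale.Agent.P354BM
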